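import Vale.Agent.P365.MathlibUsed
import Mathlib.Analysis.InnerProductSpace.Laplacian
import Mathlib.Analysis.InnerProductSpace.Calculus
import Mathlib.MeasureTheory.Integral.CircleAverage
import Mathlib.Analysis.Calculus.FDeriv.Symmetric
import Mathlib.Analysis.Calculus.ParametricIntervalIntegral


/-!
# P365 / T2 / H909 / Jensen: the `C²` Jensen formula on a disc

`circleAverage f c R - f c = ∫₀^R r log (R / r) circleAverage (Δ f) c r dr`.
-/

set_option linter.all false

namespace Vale.Agent.P365.T2.H909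

open Complex Set Metric MeasureTheory Filter Topology Real InnerProductSpace Laplacian
open scoped Interval

variable {f : ℂ → ℝ} {s : Set ℂ} {c : ℂ} {R : ℝ}

/-- second derivative as a bilinear form -/
noncomputable def D2 (f : ℂ → ℝ) (z : ℂ) : ℂ →L[ℝ] ℂ →L[ℝ] ℝ := fderiv ℝ (fderiv ℝ f) z

theorem lap_eq (f : ℂ → ℝ) (z : ℂ) : (Δ f) z = D2 f z 1 1 + D2 f z I I := by
  rw [laplacian_eq_iteratedFDeriv_complexPlane]
  simp only [iteratedFDeriv_two_apply]
  simp [D2]

theorem D2_symm (hs : IsOpen s) (hf : ContDiffOn ℝ 2 f s) {z : ℂ} (hz : z ∈ s) (u v : ℂ) :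
    D2 f z u v = D2 f z v u := by
  have h := (hf.contDiffAt (hs.mem_nhds hz)).isSymmSndFDerivAt (by simp)
  exact h.eq u v

/-- rotation invariance of the Laplacian -/
theorem lap_rot (hs : IsOpen s) (hf : ContDiffOn ℝ 2 f s) {z : ℂ} (hz : z ∈ s) {w : ℂ}
    (hw : ‖w‖ = 1) : (Δ f) z = D2 f z w w + D2 f z (w * I) (w * I) := by
  have hw2 : w.re ^ 2 + w.im ^ 2 = 1 := by
    have := Complex.sq_norm w
    rw [hw, Complex.normSq_apply] at this
    nlinarith
  have e1 : w = w.re • (1 : ℂ) + w.im • I := by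
    apply Complex.ext <;> simp
  have e2 : w * I = (-w.im) • (1 : ℂ) + w.re • I := by
    apply Complex.ext <;> simp
  rw [lap_eq]
  rw [e2]
  have e3 : D2 f z w w = D2 f z (w.re • (1 : ℂ) + w.im • I) (w.re • (1 : ℂ) + w.im • I) := by
    rw [← e1]
  rw [e3]
  simp only [map_add, map_smul, ContinuousLinearMap.add_apply, ContinuousLinearMap.smul_apply,
    smul_eq_mul]
  rw [D2_symm hs hf hz I 1]
  linear_combination (-(D2 f z 1 1) - D2 f z I I) * hw2

theorem hasDerivAt_circleMap' (c : ℂ) (r θ : ℝ) :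
    HasDerivAt (fun ρ : ℝ => circleMap c ρ θ) (circleMap 0 1 θ) r := by
  unfold circleMap
  have h := ((Complex.ofRealCLM.hasDerivAt (x := r)).mul_const (cexp (θ * I))).const_add c
  simpa using h

theorem mem_ball_circle {r : ℝ} (hr : 0 ≤ r) (hrR : r ≤ R) (θ : ℝ) :
    circleMap c r θ ∈ closedBall c R :=
  closedBall_subset_closedBall hrR (circleMap_mem_closedBall c hr θ)

theorem cont_circle2 (c : ℂ) : Continuous fun p : ℝ × ℝ => circleMap c p.1 p.2 := by
  unfold circleMap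
  fun_prop

theorem norm_circle1 (θ : ℝ) : ‖circleMap 0 1 θ‖ = 1 := by simp

section

variable (hs : IsOpen s) (hf : ContDiffOn ℝ 2 f s) (hR : 0 < R) (hb : closedBall c R ⊆ s)
include hs hf

theorem fd1 {z : ℂ} (hz : z ∈ s) : HasFDerivAt f (fderiv ℝ f z) z :=
  ((hf.contDiffAt (hs.mem_nhds hz)).differentiableAt (by norm_num)).hasFDerivAt

theorem cd1 : ContDiffOn ℝ 1 (fderiv ℝ f) s :=
  hf.fderiv_of_isOpen hs (by norm_num)

theorem fd2 {z : ℂ} (hz : z ∈ s) : HasFDerivAt (fderiv ℝ f) (D2 f z) z :=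
  (((cd1 hs hf).contDiffAt (hs.mem_nhds hz)).differentiableAt (by norm_num)).hasFDerivAt

theorem cont1 : ContinuousOn (fderiv ℝ f) s := (cd1 hs hf).continuousOn

theorem cont2 : ContinuousOn (D2 f) s :=
  ((cd1 hs hf).continuousOn_fderiv_of_isOpen hs (by norm_num))

theorem contL : ContinuousOn (Δ f) s := by
  have h := cont2 hs hf
  have e : Set.EqOn (Δ f) (fun z => D2 f z 1 1 + D2 f z I I) s := fun z _ => lap_eq f z
  refine ContinuousOn.congr ?_ e
  exact ((h.clm_apply continuousOn_const).clm_apply continuousOn_const).add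
    ((h.clm_apply continuousOn_const).clm_apply continuousOn_const)

end

/-- continuity in the radius of a circle integral of a continuous function -/
theorem contOn_int {g : ℝ → ℝ → ℝ} (hR : 0 ≤ R)
    (hg : ContinuousOn (fun p : ℝ × ℝ => g p.1 p.2) (Icc 0 R ×ˢ univ)) :
    ContinuousOn (fun r => ∫ θ in (0 : ℝ)..2 * π, g r θ) (Icc 0 R) := by
  have hK : IsCompact (Icc (0 : ℝ) R ×ˢ Icc (0 : ℝ) (2 * π)) := isCompact_Icc.prod isCompact_Icc
  obtain ⟨C, hC⟩ := hK.exists_bound_of_continuousOn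
    (hg.mono (Set.prod_mono le_rfl (subset_univ _)))
  intro r hr
  have hth : ∀ r' ∈ Icc (0 : ℝ) R, Continuous fun θ => g r' θ := by
    intro r' hr'
    have h : ContinuousOn (fun θ : ℝ => g r' θ) univ :=
      hg.comp (f := fun θ : ℝ => (r', θ)) (by fun_prop) fun θ _ => ⟨hr', mem_univ _⟩
    exact continuousOn_univ.1 h
  refine intervalIntegral.continuousWithinAt_of_dominated_interval (bound := fun _ => C) ?_ ?_
    intervalIntegrable_const ?_
  · filter_upwards [self_mem_nhdsWithin] with r' hr'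
    exact (hth r' hr').aestronglyMeasurable
  · filter_upwards [self_mem_nhdsWithin] with r' hr'
    refine Eventually.of_forall fun θ hθ => ?_
    rw [uIoc_of_le (by positivity)] at hθ
    exact hC (r', θ) ⟨hr', hθ.1.le, hθ.2⟩
  · refine Eventually.of_forall fun θ _ => ?_
    have h : ContinuousOn (fun r' : ℝ => g r' θ) (Icc 0 R) :=
      hg.comp (f := fun r' : ℝ => (r', θ)) (by fun_prop) fun r' hr' => ⟨hr', mem_univ _⟩
    exact h r hr

/-- derivative in the radius of a circle integral -/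
theorem hasDeriv_int {g g' : ℝ → ℝ → ℝ}
    (hg : ContinuousOn (fun p : ℝ × ℝ => g p.1 p.2) (Icc 0 R ×ˢ univ))
    (hg' : ContinuousOn (fun p : ℝ × ℝ => g' p.1 p.2) (Icc 0 R ×ˢ univ))
    (hd : ∀ r ∈ Ioo 0 R, ∀ θ, HasDerivAt (fun ρ => g ρ θ) (g' r θ) r) {r : ℝ}
    (hr : r ∈ Ioo 0 R) :
    HasDerivAt (fun ρ => ∫ θ in (0 : ℝ)..2 * π, g ρ θ) (∫ θ in (0 : ℝ)..2 * π, g' r θ) r := by
  have hK : IsCompact (Icc (0 : ℝ) R ×ˢ Icc (0 : ℝ) (2 * π)) := isCompact_Icc.prod isCompact_Icc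
  obtain ⟨C, hC⟩ := hK.exists_bound_of_continuousOn
    (hg'.mono (Set.prod_mono le_rfl (subset_univ _)))
  have hth : ∀ r' ∈ Icc (0 : ℝ) R, Continuous fun θ => g r' θ := by
    intro r' hr'
    have h : ContinuousOn (fun θ : ℝ => g r' θ) univ :=
      hg.comp (f := fun θ : ℝ => (r', θ)) (by fun_prop) fun θ _ => ⟨hr', mem_univ _⟩
    exact continuousOn_univ.1 h
  have hth' : ∀ r' ∈ Icc (0 : ℝ) R, Continuous fun θ => g' r' θ := by
    intro r' hr'
    have h : ContinuousOn (fun θ : ℝ => g' r' θ) univ :=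
      hg'.comp (f := fun θ : ℝ => (r', θ)) (by fun_prop) fun θ _ => ⟨hr', mem_univ _⟩
    exact continuousOn_univ.1 h
  have hn : Ioo 0 R ∈ 𝓝 r := isOpen_Ioo.mem_nhds hr
  refine (intervalIntegral.hasDerivAt_integral_of_dominated_loc_of_deriv_le
    (bound := fun _ => C) hn ?_ ?_ ?_ ?_ intervalIntegrable_const ?_).2
  · filter_upwards [hn] with r' hr'
    exact (hth r' (Ioo_subset_Icc_self hr')).aestronglyMeasurable
  · exact (hth r (Ioo_subset_Icc_self hr)).intervalIntegrable _ _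
  · exact (hth' r (Ioo_subset_Icc_self hr)).aestronglyMeasurable
  · refine Eventually.of_forall fun θ hθ r' hr' => ?_
    rw [uIoc_of_le (by positivity)] at hθ
    exact hC (r', θ) ⟨Ioo_subset_Icc_self hr', hθ.1.le, hθ.2⟩
  · exact Eventually.of_forall fun θ _ r' hr' => hd r' hr' θ

/-- **`C²` Jensen formula.** -/
theorem jensen_C2 (hs : IsOpen s) (hf : ContDiffOn ℝ 2 f s) (hR : 0 < R)
    (hb : closedBall c R ⊆ s) :
    circleAverage f c R - f c =
      ∫ r in (0 : ℝ)..R, r * Real.log (R / r) * circleAverage (Δ f) c r := by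
  have hmem : ∀ r ∈ Icc (0 : ℝ) R, ∀ θ, circleMap c r θ ∈ s := fun r hr θ =>
    hb (mem_ball_circle hr.1 hr.2 θ)
  have hmaps : MapsTo (fun p : ℝ × ℝ => circleMap c p.1 p.2) (Icc 0 R ×ˢ univ) s :=
    fun p hp => hmem p.1 hp.1 p.2
  have hc2 : ContinuousOn (fun p : ℝ × ℝ => circleMap c p.1 p.2) (Icc 0 R ×ˢ univ) :=
    (cont_circle2 c).continuousOn
  have hu2 : ContinuousOn (fun p : ℝ × ℝ => circleMap 0 1 p.2) (Icc 0 R ×ˢ univ) := by
    have : Continuous fun p : ℝ × ℝ => circleMap 0 1 p.2 := by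
      unfold circleMap
      fun_prop
    exact this.continuousOn
  -- the functions
  obtain ⟨g0, hg0⟩ : ∃ g0 : ℝ → ℝ → ℝ, g0 = fun r θ => f (circleMap c r θ) := ⟨_, rfl⟩
  obtain ⟨g1, hg1⟩ : ∃ g1 : ℝ → ℝ → ℝ,
    g1 = fun r θ => fderiv ℝ f (circleMap c r θ) (circleMap 0 1 θ) := ⟨_, rfl⟩
  obtain ⟨g2, hg2⟩ : ∃ g2 : ℝ → ℝ → ℝ,
    g2 = fun r θ => D2 f (circleMap c r θ) (circleMap 0 1 θ) (circleMap 0 1 θ) := ⟨_, rfl⟩
  obtain ⟨g3, hg3⟩ : ∃ g3 : ℝ → ℝ → ℝ,
    g3 = fun r θ => D2 f (circleMap c r θ) (circleMap 0 1 θ * I) (circleMap 0 1 θ * I) := ⟨_, rfl⟩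
  have c0 : ContinuousOn (fun p : ℝ × ℝ => g0 p.1 p.2) (Icc 0 R ×ˢ univ) := by
    rw [hg0]
    exact hf.continuousOn.comp hc2 hmaps
  have c1 : ContinuousOn (fun p : ℝ × ℝ => g1 p.1 p.2) (Icc 0 R ×ˢ univ) := by
    rw [hg1]
    exact ((cont1 hs hf).comp hc2 hmaps).clm_apply hu2
  have c2 : ContinuousOn (fun p : ℝ × ℝ => g2 p.1 p.2) (Icc 0 R ×ˢ univ) := by
    rw [hg2]
    exact (((cont2 hs hf).comp hc2 hmaps).clm_apply hu2).clm_apply hu2
  have c3 : ContinuousOn (fun p : ℝ × ℝ => g3 p.1 p.2) (Icc 0 R ×ˢ univ) := by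
    rw [hg3]
    exact (((cont2 hs hf).comp hc2 hmaps).clm_apply (hu2.mul continuousOn_const)).clm_apply
      (hu2.mul continuousOn_const)
  have d0 : ∀ r ∈ Ioo 0 R, ∀ θ, HasDerivAt (fun ρ => g0 ρ θ) (g1 r θ) r := by
    intro r hr θ
    rw [hg0, hg1]
    exact (fd1 hs hf (hmem r (Ioo_subset_Icc_self hr) θ)).comp_hasDerivAt r
      (hasDerivAt_circleMap' c r θ)
  have d1 : ∀ r ∈ Ioo 0 R, ∀ θ, HasDerivAt (fun ρ => g1 ρ θ) (g2 r θ) r := by
    intro r hr θ
    rw [hg1, hg2]
    have h := (fd2 hs hf (hmem r (Ioo_subset_Icc_self hr) θ)).comp_hasDerivAt r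
      (hasDerivAt_circleMap' c r θ)
    have h2 : HasDerivAt (fun ρ => fderiv ℝ f (circleMap c ρ θ))
        (D2 f (circleMap c r θ) (circleMap 0 1 θ)) r := h
    have h3 := h2.clm_apply (hasDerivAt_const r (circleMap 0 1 θ))
    simpa using h3
  -- the angular identity
  have ang : ∀ r ∈ Ioo 0 R, r * (∫ θ in (0 : ℝ)..2 * π, g3 r θ) = ∫ θ in (0 : ℝ)..2 * π, g1 r θ := by
    intro r hr
    have hr' := Ioo_subset_Icc_self hr
    have hk : ∀ θ : ℝ, HasDerivAt (fun t => fderiv ℝ f (circleMap c r t) (circleMap 0 1 t * I))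
        (r * g3 r θ - g1 r θ) θ := by
      intro θ
      have h1 := (fd2 hs hf (hmem r hr' θ)).comp_hasDerivAt θ (hasDerivAt_circleMap c r θ)
      have h1' : HasDerivAt (fun t => fderiv ℝ f (circleMap c r t))
        (D2 f (circleMap c r θ) (circleMap 0 r θ * I)) θ := h1
      have h2 := h1'.clm_apply ((hasDerivAt_circleMap 0 1 θ).mul_const I)
      refine h2.congr_deriv ?_
      rw [hg3, hg1]
      have e1 : circleMap 0 r θ * I = r • (circleMap 0 1 θ * I) := by
        simp only [circleMap, zero_add, real_smul]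
        push_cast
        ring
      have e2 : circleMap 0 1 θ * I * I = -circleMap 0 1 θ := by
        rw [mul_assoc, I_mul_I]
        ring
      rw [e1, e2]
      simp only [map_smul, ContinuousLinearMap.smul_apply, smul_eq_mul, map_neg]
      ring
    have hci : ∀ {g : ℝ → ℝ → ℝ},
        ContinuousOn (fun p : ℝ × ℝ => g p.1 p.2) (Icc 0 R ×ˢ univ) → Continuous fun θ => g r θ := by
      intro g hg
      have h : ContinuousOn (fun θ : ℝ => g r θ) univ :=
        hg.comp (f := fun θ : ℝ => (r, θ)) (by fun_prop) fun θ _ => ⟨hr', mem_univ _⟩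
      exact continuousOn_univ.1 h
    have hint : Continuous fun θ => r * g3 r θ - g1 r θ :=
      (continuous_const.mul (hci c3)).sub (hci c1)
    have h3 := intervalIntegral.integral_eq_sub_of_hasDerivAt (a := 0) (b := 2 * π)
      (fun θ _ => hk θ) (hint.intervalIntegrable _ _)
    have e4 : circleMap c r (2 * π) = circleMap c r 0 := by
      simpa using periodic_circleMap c r 0
    have e5 : circleMap 0 1 (2 * π) = circleMap 0 1 0 := by
      simpa using periodic_circleMap 0 1 0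
    have h4 : (∫ θ in (0 : ℝ)..2 * π, (r * g3 r θ - g1 r θ)) =
        (∫ θ in (0 : ℝ)..2 * π, r * g3 r θ) - ∫ θ in (0 : ℝ)..2 * π, g1 r θ :=
      intervalIntegral.integral_sub
        ((continuous_const.mul (hci c3)).intervalIntegrable _ _) ((hci c1).intervalIntegrable _ _)
    rw [e4, e5, sub_self, h4, intervalIntegral.integral_const_mul] at h3
    linarith
  -- the averaged Laplacian
  have hL : ∀ r ∈ Icc 0 R, circleAverage (Δ f) c r =
      (2 * π)⁻¹ * ((∫ θ in (0 : ℝ)..2 * π, g2 r θ) + ∫ θ in (0 : ℝ)..2 * π, g3 r θ) := by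
    intro r hr
    have hci : ∀ {g : ℝ → ℝ → ℝ},
        ContinuousOn (fun p : ℝ × ℝ => g p.1 p.2) (Icc 0 R ×ˢ univ) → Continuous fun θ => g r θ := by
      intro g hg
      have h : ContinuousOn (fun θ : ℝ => g r θ) univ :=
        hg.comp (f := fun θ : ℝ => (r, θ)) (by fun_prop) fun θ _ => ⟨hr, mem_univ _⟩
      exact continuousOn_univ.1 h
    rw [circleAverage_def, smul_eq_mul, ← intervalIntegral.integral_add
      ((hci c2).intervalIntegrable _ _) ((hci c3).intervalIntegrable _ _)]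
    congr 1
    refine intervalIntegral.integral_congr fun θ _ => ?_
    rw [hg2, hg3]
    exact lap_rot hs hf (hmem r hr θ) (norm_circle1 θ)
  -- the primitive
  have hlog : ∀ r ∈ Icc 0 R, r * Real.log (R / r) = r * Real.log R - r * Real.log r := by
    intro r hr
    rcases hr.1.eq_or_lt with h | h
    · rw [← h]
      simp
    · rw [Real.log_div hR.ne' h.ne']
      ring
  have hlc : ContinuousOn (fun r : ℝ => r * Real.log (R / r)) (Icc 0 R) := by
    have : Continuous fun r : ℝ => r * Real.log R - r * Real.log r :=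
      (continuous_id.mul continuous_const).sub Real.continuous_mul_log
    exact this.continuousOn.congr hlog
  have C0 := contOn_int hR.le c0
  have C1 := contOn_int hR.le c1
  have C2 := contOn_int hR.le c2
  have C3 := contOn_int hR.le c3
  have hQc : ContinuousOn (fun r => (∫ θ in (0 : ℝ)..2 * π, g0 r θ) +
      r * Real.log (R / r) * ∫ θ in (0 : ℝ)..2 * π, g1 r θ) (Icc 0 R) := C0.add (hlc.mul C1)
  have hQd : ∀ r ∈ Ioo 0 R, HasDerivAt (fun r => (∫ θ in (0 : ℝ)..2 * π, g0 r θ) +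
      r * Real.log (R / r) * ∫ θ in (0 : ℝ)..2 * π, g1 r θ)
      (r * Real.log (R / r) * ((∫ θ in (0 : ℝ)..2 * π, g2 r θ) +
        ∫ θ in (0 : ℝ)..2 * π, g3 r θ)) r := by
    intro r hr
    have h0 := hasDeriv_int c0 c1 d0 hr
    have h1 := hasDeriv_int c1 c2 d1 hr
    have hl : HasDerivAt (fun r : ℝ => r * Real.log (R / r)) (Real.log (R / r) - 1) r := by
      have h2 : HasDerivAt (fun r : ℝ => r * Real.log R - r * Real.log r)
          (1 * Real.log R - (1 * Real.log r + r * r⁻¹)) r :=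
        ((hasDerivAt_id r).mul_const _).sub ((hasDerivAt_id r).mul (Real.hasDerivAt_log hr.1.ne'))
      have h3 : (fun r : ℝ => r * Real.log (R / r)) =ᶠ[𝓝 r]
          fun r : ℝ => r * Real.log R - r * Real.log r := by
        filter_upwards [isOpen_Ioo.mem_nhds hr] with t ht
        exact hlog t (Ioo_subset_Icc_self ht)
      refine (h2.congr_of_eventuallyEq h3).congr_deriv ?_
      rw [Real.log_div hR.ne' hr.1.ne', mul_inv_cancel₀ hr.1.ne']
      ring
    refine (h0.add (hl.mul h1)).congr_deriv ?_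
    rw [← ang r hr]
    ring
  have hint : ContinuousOn (fun r => r * Real.log (R / r) *
      ((∫ θ in (0 : ℝ)..2 * π, g2 r θ) + ∫ θ in (0 : ℝ)..2 * π, g3 r θ)) (Icc 0 R) :=
    hlc.mul (C2.add C3)
  have hfin := intervalIntegral.integral_eq_sub_of_hasDerivAt_of_le hR.le hQc hQd
    (hint.intervalIntegrable_of_Icc hR.le)
  have e0 : (∫ θ in (0 : ℝ)..2 * π, g0 0 θ) = 2 * π * f c := by
    rw [hg0]
    simp
  rw [div_self hR.ne', Real.log_one, mul_zero, zero_mul, add_zero, zero_mul, zero_mul,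
    add_zero] at hfin
  rw [e0] at hfin
  have e1 : (∫ r in (0 : ℝ)..R, r * Real.log (R / r) * circleAverage (Δ f) c r) =
      (2 * π)⁻¹ * ∫ r in (0 : ℝ)..R, r * Real.log (R / r) *
        ((∫ θ in (0 : ℝ)..2 * π, g2 r θ) + ∫ θ in (0 : ℝ)..2 * π, g3 r θ) := by
    rw [← intervalIntegral.integral_const_mul]
    refine intervalIntegral.integral_congr fun r hr => ?_
    rw [uIcc_of_le hR.le] at hr
    rw [hL r hr]
    ring
  rw [e1, hfin, circleAverage_def, smul_eq_mul]
  have e2 : (∫ θ in (0 : ℝ)..2 * π, g0 R θ) = ∫ θ in (0 : ℝ)..2 * π, f (circleMap c R θ) := by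
    rw [hg0]
  rw [e2]
  field_simp

end Vale.Agent.P365.T2.H909
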