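import Vale.Agent.P365.L5.Kick1
import Mathlib.MeasureTheory.Integral.CircleAverage
import Mathlib.Analysis.SpecialFunctions.Trigonometric.Arctan

/-!
# P365 / T2 / H909 / Kick: a Cauchy kick is a circle average

`∫ f (uu p t) dν(t) = circleAverage (f ∘ φ) 0 1`, `φ z = (z + u₀) / (1 + conj u₀ z)`.
-/

set_option linter.all false

namespace Vale.Agent.P365.T2.H909

open Complex Set Metric MeasureTheory Filter Topology Real P365L P365L5 ProbabilityTheory
open scoped Interval ComplexConjugate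

/-- the automorphism of the disc with `φ 0 = u` -/
noncomputable def phi (u z : ℂ) : ℂ := (z + u) / (1 + conj u * z)

theorem phi_zero (u : ℂ) : phi u 0 = u := by simp [phi]

theorem norm_u0_lt {p : ℂ} (hp : 0 < p.im) : ‖u0 p‖ < 1 := by
  have h := one_sub_u0 hp
  have h0 : 0 < ‖-I - p‖ := norm_pos_iff.2 (mI_sub_ne hp)
  have h1 : 0 < 4 * p.im / ‖-I - p‖ ^ 2 := by positivity
  nlinarith [norm_nonneg (u0 p)]

theorem phi_den_ne {u z : ℂ} (hu : ‖u‖ < 1) (hz : ‖z‖ ≤ 1) : 1 + conj u * z ≠ 0 := by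
  apply one_add_ne_zero
  rw [norm_mul, Complex.norm_conj]
  calc ‖u‖ * ‖z‖ ≤ ‖u‖ * 1 := by gcongr
    _ < 1 := by linarith

/-- `1 - |φ z|² = (1 - |u|²)(1 - |z|²)/|1 + conj u z|²` -/
theorem one_sub_phi {u z : ℂ} (hu : ‖u‖ < 1) (hz : ‖z‖ ≤ 1) :
    1 - ‖phi u z‖ ^ 2 = (1 - ‖u‖ ^ 2) * (1 - ‖z‖ ^ 2) / ‖1 + conj u * z‖ ^ 2 := by
  have h0 : 0 < ‖1 + conj u * z‖ := norm_pos_iff.2 (phi_den_ne hu hz)
  rw [phi, norm_div, div_pow, eq_div_iff (by positivity), sub_mul, one_mul,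
    div_mul_cancel₀ _ (by positivity)]
  simp only [Complex.sq_norm, normSq_apply]
  simp
  ring

theorem norm_phi_le {u z : ℂ} (hu : ‖u‖ < 1) (hz : ‖z‖ ≤ 1) : ‖phi u z‖ ≤ 1 := by
  have h := one_sub_phi hu hz
  have h0 : 0 < ‖1 + conj u * z‖ := norm_pos_iff.2 (phi_den_ne hu hz)
  have h1 : 0 ≤ (1 - ‖u‖ ^ 2) * (1 - ‖z‖ ^ 2) / ‖1 + conj u * z‖ ^ 2 := by
    have a1 : 0 ≤ 1 - ‖u‖ ^ 2 := by nlinarith [norm_nonneg u]
    have a2 : 0 ≤ 1 - ‖z‖ ^ 2 := by nlinarith [norm_nonneg z]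
    positivity
  nlinarith [norm_nonneg (phi u z)]

theorem norm_phi_lt {u z : ℂ} (hu : ‖u‖ < 1) (hz : ‖z‖ < 1) : ‖phi u z‖ < 1 := by
  have h := one_sub_phi hu hz.le
  have h0 : 0 < ‖1 + conj u * z‖ := norm_pos_iff.2 (phi_den_ne hu hz.le)
  have h1 : 0 < (1 - ‖u‖ ^ 2) * (1 - ‖z‖ ^ 2) / ‖1 + conj u * z‖ ^ 2 := by
    have a1 : 0 < 1 - ‖u‖ ^ 2 := by nlinarith [norm_nonneg u]
    have a2 : 0 < 1 - ‖z‖ ^ 2 := by nlinarith [norm_nonneg z]
    positivity
  nlinarith [norm_nonneg (phi u z)]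

/-- the phase -/
noncomputable def lam (p : ℂ) : ℂ := -conj (p + I) / (p + I)

theorem p_add_I_ne {p : ℂ} (hp : 0 < p.im) : p + I ≠ 0 := by
  intro h
  have := congrArg Complex.im h
  simp at this
  linarith

theorem norm_lam {p : ℂ} (hp : 0 < p.im) : ‖lam p‖ = 1 := by
  rw [lam, norm_div, norm_neg, Complex.norm_conj, div_self (norm_pos_iff.2 (p_add_I_ne hp)).ne']

theorem t_sub_I_ne (t : ℝ) : (t : ℂ) - I ≠ 0 := by
  intro h
  have := congrArg Complex.im h
  simp at this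

/-- the Cayley variable -/
theorem uu_eq_phi {p : ℂ} (hp : 0 < p.im) (t : ℝ) :
    uu p t = phi (u0 p) (lam p * (((t : ℂ) + I) / ((t : ℂ) - I))) := by
  have h1 := cau_sub_ne hp t
  have h2 := mI_sub_ne hp
  have h3 := p_add_I_ne hp
  have h4 := t_sub_I_ne t
  have h5 : conj p - I ≠ 0 := by
    intro h
    apply h3
    have := congrArg conj h
    simpa using this
  have h6 : p - conj p ≠ 0 := by
    rw [Complex.sub_conj]
    simp [hp.ne']
  have hc : conj (u0 p) = (p - I) / (conj p - I) := by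
    rw [u0, map_div₀]
    simp only [map_sub, map_neg, conj_I, conj_conj, neg_neg]
    rw [div_eq_div_iff (by intro h; apply h5; linear_combination -h) h5]
    ring
  have hcl : lam p = -(conj p - I) / (p + I) := by
    rw [lam]
    simp only [map_add, conj_I]
    ring
  have hu : ‖u0 p‖ < 1 := norm_u0_lt hp
  have hne : 1 + conj (u0 p) * (lam p * (((t : ℂ) + I) / ((t : ℂ) - I))) ≠ 0 := by
    apply phi_den_ne hu
    have e : ‖(t : ℂ) + I‖ = ‖(t : ℂ) - I‖ := by
      rw [← Complex.norm_conj ((t : ℂ) - I)]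
      simp
    rw [norm_mul, norm_lam hp, norm_div, e, div_self (norm_pos_iff.2 h4).ne', one_mul]
  rw [phi, eq_div_iff hne, hc, hcl, uu, u0]
  have h7 : -I - p = -(p + I) := by ring
  rw [h7]
  field_simp
  ring

/-- integration against the standard Cauchy law by the substitution `t = tan β` -/
theorem integral_nu_tan {E : Type*} [NormedAddCommGroup E] [NormedSpace ℝ E] (g : ℝ → E) :
    ∫ t, g t ∂nu = π⁻¹ • ∫ β in (-(π / 2))..(π / 2), g (Real.tan β) := by
  have h1 : nu = volume.withDensity (cauchyPDF 0 1) :=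
    cauchyMeasure_of_scale_ne_zero 0 one_ne_zero
  have h2 : ∫ t, g t ∂nu = ∫ t, (π⁻¹ * (t ^ 2 + 1)⁻¹ : ℝ) • g t := by
    rw [h1, integral_withDensity_eq_integral_toReal_smul (measurable_cauchyPDF 0 1)
      (Filter.Eventually.of_forall fun x => ENNReal.ofReal_lt_top)]
    refine integral_congr_ae (Filter.Eventually.of_forall fun t => ?_)
    simp only [cauchyPDF, ENNReal.toReal_ofReal (cauchyPDF_pos 0 one_ne_zero t).le]
    congr 1
    simp only [cauchyPDFReal, NNReal.coe_one, mul_one, sub_zero, one_pow]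
  have h3 : Real.tan '' Ioo (-(π / 2)) (π / 2) = univ := Real.image_tan_Ioo
  have h4 := integral_image_eq_integral_abs_deriv_smul (s := Ioo (-(π / 2)) (π / 2))
    (f := Real.tan) (f' := fun x => 1 / Real.cos x ^ 2) measurableSet_Ioo
    (fun x hx => (Real.hasDerivAt_tan_of_mem_Ioo hx).hasDerivWithinAt)
    Real.injOn_tan (fun t => (π⁻¹ * (t ^ 2 + 1)⁻¹ : ℝ) • g t)
  rw [h3, Measure.restrict_univ] at h4
  rw [h2, h4, intervalIntegral.integral_of_le (by linarith [Real.pi_pos]),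
    ← integral_Ioc_eq_integral_Ioo, ← integral_smul]
  rw [integral_Ioc_eq_integral_Ioo, integral_Ioc_eq_integral_Ioo]
  refine setIntegral_congr_fun measurableSet_Ioo fun x hx => ?_
  have hc : 0 < Real.cos x := Real.cos_pos_of_mem_Ioo hx
  rw [smul_smul]
  congr 1
  rw [abs_of_pos (by positivity), Real.tan_eq_sin_div_cos]
  have h5 := Real.sin_sq_add_cos_sq x
  have h6 : (Real.sin x / Real.cos x) ^ 2 + 1 = 1 / Real.cos x ^ 2 := by
    field_simp
    linarith
  rw [h6]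
  field_simp

theorem cayley_tan {β : ℝ} (hβ : Real.cos β ≠ 0) :
    ((Real.tan β : ℂ) + I) / ((Real.tan β : ℂ) - I) = circleMap 0 1 (π - 2 * β) := by
  have h4 := t_sub_I_ne (Real.tan β)
  rw [div_eq_iff h4, circleMap_zero, Complex.ofReal_one, one_mul]
  push_cast
  have hc : Complex.cos β ≠ 0 := by
    rw [← Complex.ofReal_cos]
    exact_mod_cast hβ
  have e1 : ((π : ℂ) - 2 * β) * I = π * I + -(β * I) + -(β * I) := by ring
  rw [e1, Complex.exp_add, Complex.exp_add, Complex.exp_pi_mul_I]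
  have e2 : cexp (-(β * I)) = Complex.cos β - Complex.sin β * I := by
    rw [show -((β : ℂ) * I) = (-β : ℂ) * I by ring, Complex.exp_mul_I, Complex.cos_neg,
      Complex.sin_neg]
    ring
  rw [e2, Complex.tan_eq_sin_div_cos]
  have h5 := Complex.sin_sq_add_cos_sq (β : ℂ)
  have hI : I ^ 2 = -1 := I_sq
  have key : (Complex.cos β - Complex.sin β * I) * (Complex.sin β - Complex.cos β * I) = -I := by
    linear_combination (-I) * h5 + (Complex.sin β * Complex.cos β) * hI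
  field_simp
  linear_combination (Complex.cos β - Complex.sin β * I) * key + Complex.sin β * hI

/-- **a Cauchy kick is a circle average** -/
theorem kick_avg {E : Type*} [NormedAddCommGroup E] [NormedSpace ℝ E] {p : ℂ} (hp : 0 < p.im)
    (f : ℂ → E) : ∫ t, f (uu p t) ∂nu = circleAverage (fun z => f (phi (u0 p) z)) 0 1 := by
  obtain ⟨α, hα⟩ : ∃ α : ℝ, lam p = cexp (α * I) := by
    refine ⟨(lam p).arg, ?_⟩
    have := Complex.norm_mul_exp_arg_mul_I (lam p)
    rw [norm_lam hp, Complex.ofReal_one, one_mul] at this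
    exact this.symm
  rw [integral_nu_tan]
  have h1 : ∫ β in (-(π / 2))..(π / 2), f (uu p (Real.tan β)) =
      ∫ β in (-(π / 2))..(π / 2), f (phi (u0 p) (circleMap 0 1 (π - 2 * β + α))) := by
    rw [intervalIntegral.integral_of_le (by linarith [Real.pi_pos]),
      intervalIntegral.integral_of_le (by linarith [Real.pi_pos]),
      integral_Ioc_eq_integral_Ioo, integral_Ioc_eq_integral_Ioo]
    refine setIntegral_congr_fun measurableSet_Ioo fun β hβ => ?_
    have hc : Real.cos β ≠ 0 := (Real.cos_pos_of_mem_Ioo hβ).ne'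
    rw [uu_eq_phi hp, cayley_tan hc, hα]
    congr 2
    simp only [circleMap_zero, Complex.ofReal_one, one_mul]
    rw [← Complex.exp_add]
    congr 1
    push_cast
    ring
  rw [h1, intervalIntegral.integral_comp_sub_mul
    (fun θ => f (phi (u0 p) (circleMap 0 1 (θ + α)))) two_ne_zero π,
    circleAverage_eq_integral_add α, smul_smul]
  congr 1
  · rw [← mul_inv]
    ring
  · congr 1 <;> ring

/-- the same on the circle of the resolvent kicks -/
theorem kick_avg_tz {E : Type*} [NormedAddCommGroup E] [NormedSpace ℝ E] {h : ℝ} (hh : 0 < h)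
    {g : ℂ} (hg : h * ‖g‖ ^ 2 < g.im) (F : ℂ → E) :
    ∫ t, F (tz h g t) ∂nu = circleAverage
      (fun z => F (bb h g * (phi (u0 (cau_p h g)) z - u0 (cau_p h g)))) 0 1 := by
  simp only [tz_eq hh hg]
  exact kick_avg (cau_p_pos hh hg) fun u => F (bb h g * (u - u0 (cau_p h g)))

theorem normSq_ofReal (u : ℂ) : conj u * u = ((‖u‖ ^ 2 : ℝ) : ℂ) := by
  rw [mul_comm, Complex.mul_conj, Complex.sq_norm]

/-- derivative of the disc automorphism -/
theorem hasDerivAt_phi {u z : ℂ} (hu : ‖u‖ < 1) (hz : ‖z‖ ≤ 1) :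
    HasDerivAt (phi u) (((1 - ‖u‖ ^ 2 : ℝ) : ℂ) / (1 + conj u * z) ^ 2) z := by
  have hne := phi_den_ne hu hz
  have h1 : HasDerivAt (fun z : ℂ => z + u) 1 z := (hasDerivAt_id z).add_const u
  have h2 : HasDerivAt (fun z : ℂ => 1 + conj u * z) (conj u) z := by
    simpa using ((hasDerivAt_id z).const_mul (conj u)).const_add 1
  refine (h1.div h2 hne).congr_deriv ?_
  rw [Complex.ofReal_sub, Complex.ofReal_one, ← normSq_ofReal]
  field_simp
  ring

theorem norm_deriv_phi {u z : ℂ} (hu : ‖u‖ < 1) (hz : ‖z‖ ≤ 1) :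
    ‖((1 - ‖u‖ ^ 2 : ℝ) : ℂ) / (1 + conj u * z) ^ 2‖ =
      (1 - ‖u‖ ^ 2) / ‖1 + conj u * z‖ ^ 2 := by
  rw [norm_div, norm_pow, Complex.norm_real, Real.norm_of_nonneg]
  nlinarith [norm_nonneg u]

/-- `phi` is smooth near the closed disc -/
theorem contDiffAt_phi {u z : ℂ} (hu : ‖u‖ < 1) (hz : ‖z‖ ≤ 1) {n : WithTop ℕ∞} :
    ContDiffAt ℝ n (phi u) z := by
  have hne := phi_den_ne hu hz
  have h : ContDiffAt ℂ n (fun z => (z + u) / (1 + conj u * z)) z :=
    (contDiffAt_id.add contDiffAt_const).div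
      (contDiffAt_const.add (contDiffAt_const.mul contDiffAt_id)) hne
  exact h.restrict_scalars ℝ

end Vale.Agent.P365.T2.H909
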